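import Vale.Agent.Borsuk.Inner

namespace Vale.Agent.Borsuk

open Finset

/-- No sublist of length n of the list is a clique. -/
noncomputable def noClique {α : Type} (r : α → α → Bool) : ℕ → List α → Bool
  | 0 => fun _ => false
  | n + 1 => fun l => List.rec (motive := fun _ => Bool) true
      (fun v rest ih => noClique r n (rest.filter (r v)) && ih) l

theorem noClique_sound {α : Type} [DecidableEq α] (r : α → α → Bool) : ∀ (n : ℕ) (l : List α),
    noClique r n l = true → ∀ s : Finset α, (∀ x ∈ s, x ∈ l) →
      (∀ x ∈ s, ∀ y ∈ s, x ≠ y → r x y = true) → s.card < n := by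
  intro n
  induction n with
  | zero => intro l h; simp [noClique] at h
  | succ n ihn =>
    intro l
    induction l with
    | nil =>
      intro _ s hs _
      have : s = ∅ := Finset.eq_empty_of_forall_notMem (fun x hx => by simpa using hs x hx)
      simp [this]
    | cons v rest ih =>
      intro h s hs hr
      have h' : (noClique r n (rest.filter (r v)) && noClique r (n + 1) rest) = true := h
      rw [Bool.and_eq_true] at h'
      by_cases hv : v ∈ s
      · have h1 := ihn _ h'.1 (s.erase v) (by
          intro x hx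
          rw [Finset.mem_erase] at hx
          rw [List.mem_filter]
          refine ⟨?_, hr v hv x hx.2 (Ne.symm hx.1)⟩
          have := hs x hx.2
          rw [List.mem_cons] at this
          exact this.resolve_left hx.1) (by
          intro x hx y hy hxy
          exact hr x (Finset.mem_of_mem_erase hx) y (Finset.mem_of_mem_erase hy) hxy)
        have h2 := Finset.card_erase_add_one hv
        omega
      · exact ih h'.2 s (by
          intro x hx
          have := hs x hx
          rw [List.mem_cons] at this
          rcases this with rfl | h3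
          · exact absurd hx hv
          · exact h3) hr

def labs : List Lab :=
  (List.finRange 5).flatMap fun g => (List.finRange 16).flatMap fun b =>
    (List.finRange 4).map fun k => (g, b, k)

theorem mem_labs (u : Lab) : u ∈ labs := by
  obtain ⟨g, b, k⟩ := u
  simp [labs]

theorem check0 : noClique adj 5 (labs.filter fun u => u.1 == 0) = true := by decide +kernel

theorem check1 : noClique adj 5 (labs.filter (adj (1, 0, 0))) = true := by decide +kernel

theorem check2 : noClique adj 5 (labs.filter (adj (2, 0, 0))) = true := by decide +kernel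

theorem check3 : noClique adj 5 (labs.filter (adj (3, 0, 0))) = true := by decide +kernel

theorem check4 : noClique adj 5 (labs.filter (adj (4, 0, 0))) = true := by decide +kernel

theorem checkW : noClique adj 5 (labs.filter aw) = true := by decide +kernel

theorem check (g : Fin 5) (hg : g ≠ 0) :
    noClique adj 5 (labs.filter (adj (g, 0, 0))) = true := by
  match g with
  | 0 => exact absurd rfl hg
  | 1 => exact check1
  | 2 => exact check2
  | 3 => exact check3
  | 4 => exact check4

/-- A symmetry of the configuration. -/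
def mv (c : Fin 16) (s : Fin 4) (u : Lab) : Lab :=
  if u.1 = 0 then (0, u.2.1, (u.2.2 ^^^ lin c u.2.1) ^^^ s) else (u.1, u.2.1 ^^^ c, u.2.2 ^^^ s)

theorem x16_self : ∀ a b : Fin 16, (a ^^^ b) ^^^ b = a := by decide +kernel
theorem x4_self : ∀ a b : Fin 4, (a ^^^ b) ^^^ b = a := by decide +kernel
theorem x4_swap : ∀ a b c : Fin 4, (a ^^^ b) ^^^ c = (a ^^^ c) ^^^ b := by decide +kernel
theorem x16_cancel : ∀ a b c : Fin 16, (a ^^^ c) ^^^ (b ^^^ c) = a ^^^ b := by decide +kernel
theorem x4_cancel : ∀ a b c : Fin 4, (a ^^^ c) ^^^ (b ^^^ c) = a ^^^ b := by decide +kernel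
theorem x4_l : ∀ k m s x : Fin 4, ((k ^^^ x) ^^^ s) ^^^ (m ^^^ s) = (k ^^^ m) ^^^ x := by
  decide +kernel
theorem x4_r : ∀ k m s x : Fin 4, (k ^^^ s) ^^^ ((m ^^^ x) ^^^ s) = (k ^^^ m) ^^^ x := by
  decide +kernel
theorem x4_inj : ∀ a b c : Fin 4, (a ^^^ c = b ^^^ c) ↔ a = b := by decide +kernel
theorem x16_inj : ∀ a b c : Fin 16, (a ^^^ c = b ^^^ c) ↔ a = b := by decide +kernel
theorem beta_xor : ∀ (g : Fin 5) (b c : Fin 16), beta g (b ^^^ c) = beta g b ^^^ beta g c := by
  decide +kernel
theorem fn_add (g : Fin 5) (b c z : Fin 16) : fn g (b ^^^ c) z = fn g b z ^^^ lin c z := by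
  unfold fn
  rw [lin_xor]
  generalize q g z = x
  generalize lin b z = y
  generalize lin c z = w
  revert x y w
  decide +kernel

theorem mv_mv (c : Fin 16) (s : Fin 4) (u : Lab) : mv c s (mv c s u) = u := by
  obtain ⟨g, b, k⟩ := u
  by_cases hg : g = 0
  · subst hg
    simp only [mv, if_true]
    rw [x4_swap _ _ (lin c b), x4_self, x4_self]
  · simp only [mv, hg, if_false, x16_self, x4_self]

theorem adj_mv (c : Fin 16) (s : Fin 4) (u v : Lab) : adj (mv c s u) (mv c s v) = adj u v := by
  obtain ⟨g, b, k⟩ := u
  obtain ⟨h, d, m⟩ := v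
  rw [Bool.eq_iff_iff]
  by_cases hg : g = 0
  · subst hg
    by_cases hh : h = 0
    · subst hh
      simp [mv, adj]
    · have h0 : (0 : Fin 5) ≠ h := fun e => hh e.symm
      simp only [mv, adj, hh, h0, if_true, if_false, tt, beq_iff_eq]
      rw [x4_l, fn_add, x4_inj]
  · by_cases hh : h = 0
    · subst hh
      simp only [mv, adj, hg, if_true, if_false, tt, beq_iff_eq]
      rw [x4_r, fn_add, x4_inj]
    · by_cases hgh : g = h
      · subst hgh
        simp only [mv, adj, hg, if_true, if_false, Bool.and_eq_true, bne_iff_ne, ne_eq, beq_iff_eq,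
          x16_inj, beta_xor, x4_inj]
      · simp only [mv, adj, hg, hh, hgh, if_false, tt, beq_iff_eq, x4_cancel, x16_cancel]

theorem clique_lab (s : Finset Lab) (hs : ∀ x ∈ s, ∀ y ∈ s, x ≠ y → adj x y = true) :
    s.card < 6 := by
  classical
  by_cases h : ∀ u ∈ s, u.1 = 0
  · have := noClique_sound adj 5 _ check0 s (fun x hx => by
      rw [List.mem_filter]
      exact ⟨mem_labs x, by simpa using h x hx⟩) hs
    omega
  · push Not at h
    obtain ⟨u, hu, hu0⟩ := h
    obtain ⟨g, b, k⟩ := u
    simp only at hu0
    have hinj : Function.Injective (mv b k) := by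
      intro x y hxy
      have := congrArg (mv b k) hxy
      rwa [mv_mv, mv_mv] at this
    have hbase : mv b k (g, b, k) = (g, 0, 0) := by
      simp only [mv, hu0, if_false]
      rw [(xor16_zero_iff b b).2 rfl, (xor_zero_iff k k).2 rfl]
    have hadj : ∀ x ∈ s.image (mv b k), ∀ y ∈ s.image (mv b k), x ≠ y → adj x y = true := by
      intro x hx y hy hxy
      rw [Finset.mem_image] at hx hy
      obtain ⟨x', hx', rfl⟩ := hx
      obtain ⟨y', hy', rfl⟩ := hy
      rw [adj_mv]
      exact hs x' hx' y' hy' (fun e => hxy (by rw [e]))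
    have hmem : ((g, 0, 0) : Lab) ∈ s.image (mv b k) := by
      rw [Finset.mem_image]; exact ⟨_, hu, hbase⟩
    have h1 := noClique_sound adj 5 _ (check g hu0) ((s.image (mv b k)).erase (g, 0, 0))
      (fun x hx => by
        rw [Finset.mem_erase] at hx
        rw [List.mem_filter]
        exact ⟨mem_labs x, hadj _ hmem x hx.2 (Ne.symm hx.1)⟩)
      (fun x hx y hy hxy => hadj x (Finset.mem_of_mem_erase hx) y (Finset.mem_of_mem_erase hy) hxy)
    have h2 := Finset.card_erase_add_one hmem
    rw [Finset.card_image_of_injective _ hinj] at h2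
    omega

theorem clique_aw (s : Finset Lab) (hs : ∀ x ∈ s, ∀ y ∈ s, x ≠ y → adj x y = true)
    (ha : ∀ x ∈ s, aw x = true) : s.card < 5 :=
  noClique_sound adj 5 _ checkW s (fun x hx => by
    rw [List.mem_filter]
    exact ⟨mem_labs x, ha x hx⟩) hs

end Vale.Agent.Borsuk
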