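import Mathlib

/-!
Data of a set of 321 points in real 63-space. Labels are triples (g, b, k), with g one of five
groups, b one of sixteen supports and k one of four signs; a support is a pair of elements of the
field with four elements, coded 4 x + y.
-/

namespace Vale.Agent.Borsuk

def qTab : Nat := 0x330582b4058233b4823305b40000000000000000
def lTab : Nat :=
  0x36c9639cd22d87784eb11be4aa55ff00c963369c2d87d278b11b4ee455ffaa006336c99c87d22d781b4eb1e4ffaa55009c9c9c9c78787878e4e4e4e400000000
def bTab : Nat := 0xb11b4ee44eb11be41b4eb1e4e4e4e4e4e4e4e4e4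
def tTab : Nat :=
  0x28cc50b4cc5028b4058233b40000000028cc50b4000000005028ccb4330582b400000000cc5028b45028ccb400000000823305b400000000058233b4330582b4823305b400000000000000000000000000000000000000000000000000000000
def wTab : Nat :=
  0x330000cc00cccc0000cc330000cccc0000cc00cc3300cc0000cc00cc00cc003300330033003300cc

/-- Two bits of a table. -/
def look (t i : Nat) : Fin 4 := ⟨(t >>> (2 * i)) % 4, Nat.mod_lt _ (by decide)⟩

def q (g : Fin 5) (z : Fin 16) : Fin 4 := look qTab (16 * g.val + z.val)
def lin (b z : Fin 16) : Fin 4 := look lTab (16 * b.val + z.val)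
def beta (g : Fin 5) (b : Fin 16) : Fin 4 := look bTab (16 * g.val + b.val)
def t1 (g h : Fin 5) (d : Fin 16) : Fin 4 := look tTab (80 * g.val + 16 * h.val + d.val)

/-- The quadratic function of group g and support b, at z. -/
def fn (g : Fin 5) (b z : Fin 16) : Fin 4 := q g z ^^^ lin b z

/-- The three nontrivial characters of the additive group of the field with four elements. -/
def sg (l : Fin 3) (v : Fin 4) : ℤ :=
  if (0xa6c >>> (4 * l.val + v.val)) % 2 = 1 then -1 else 1

abbrev Lab := Fin 5 × Fin 16 × Fin 4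

abbrev Coord := (Fin 3 × Fin 16) ⊕ (Fin 5 × Fin 3)

def cc (g : Fin 5) (b : Fin 16) (l : Fin 3) (z : Fin 16) : ℤ :=
  if g = 0 then (if z = b then 4 else 0) else sg l (fn g b z)

/-- The 320 integer points. -/
def V (u : Lab) : Coord → ℤ
  | Sum.inl (l, z) => sg l u.2.2 * cc u.1 u.2.1 l z
  | Sum.inr (g, l) => if g = u.1 then 2 * sg l (beta u.1 u.2.1) else 0

/-- The label difference making two points of different groups adjacent. -/
def tt (g : Fin 5) (b : Fin 16) (h : Fin 5) (c : Fin 16) : Fin 4 :=
  if g = 0 then fn h c b else if h = 0 then fn g b c else t1 g h (b ^^^ c)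

def adj (u v : Lab) : Bool :=
  if u.1 = v.1 then (u.2.1 != v.2.1) && (beta u.1 u.2.1 == beta v.1 v.2.1)
  else (u.2.2 ^^^ v.2.2) == tt u.1 u.2.1 v.1 v.2.1

def aw (u : Lab) : Bool := (wTab >>> (64 * u.1.val + 4 * u.2.1.val + u.2.2.val)) % 2 == 1

/-- The direction of the extra point. -/
def W : Coord → ℤ
  | Sum.inl (l, z) => if l = 0 then (if z.val % 4 < 2 then (if z.val < 4 then -2 else 2) else 0) else 0
  | Sum.inr (g, l) => if l = 0 then (if g.val < 2 then 2 else -2) else 0

end Vale.Agent.Borsuk
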