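import Vale.Agent.Borsuk.Inner

namespace Vale.Agent.Borsuk

open Finset

theorem W_norm : ∑ i, W i * W i = 52 := by decide +kernel

theorem W_dot : ∀ u : Lab, ∑ i, W i * V u i = if aw u then 12 else -4 := by decide +kernel

end Vale.Agent.Borsuk
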