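import Vale.Agent.Borsuk.Data

namespace Vale.Agent.Borsuk

open Finset

theorem sg_xor : ∀ (l : Fin 3) (a b : Fin 4), sg l (a ^^^ b) = sg l a * sg l b := by decide

theorem sum_sg : ∀ a : Fin 4, ∑ l : Fin 3, sg l a = if a = 0 then 3 else -1 := by decide

theorem xor_zero_iff : ∀ a b : Fin 4, (a ^^^ b = 0) ↔ a = b := by decide

theorem xor16_zero_iff : ∀ a b : Fin 16, (a ^^^ b = 0) ↔ a = b := by decide

theorem xor_comb : ∀ x y u v : Fin 4, (x ^^^ u) ^^^ (y ^^^ v) = (x ^^^ y) ^^^ (u ^^^ v) := by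
  decide +kernel

theorem lin_xor : ∀ (b c z : Fin 16), lin (b ^^^ c) z = lin b z ^^^ lin c z := by decide +kernel

theorem fn_xor (g h : Fin 5) (b c z : Fin 16) :
    fn g b z ^^^ fn h c z = (q g z ^^^ q h z) ^^^ lin (b ^^^ c) z := by
  unfold fn
  rw [lin_xor, xor_comb]

theorem sum16 (f : Fin 16 → ℤ) : ∑ z, f z = f 0 + f 1 + f 2 + f 3 + f 4 + f 5 + f 6 + f 7 + f 8
    + f 9 + f 10 + f 11 + f 12 + f 13 + f 14 + f 15 := by
  simp [Fin.sum_univ_succ]
  ring

def s16 (l : Fin 3) (g h : Fin 5) (d : Fin 16) : ℤ :=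
  let f : Fin 16 → ℤ := fun z => sg l ((q g z ^^^ q h z) ^^^ lin d z)
  f 0 + f 1 + f 2 + f 3 + f 4 + f 5 + f 6 + f 7 + f 8
    + f 9 + f 10 + f 11 + f 12 + f 13 + f 14 + f 15

theorem s16_eq : ∀ (l : Fin 3) (g h : Fin 5) (d : Fin 16), g ≠ 0 → h ≠ 0 →
    s16 l g h d = if g = h then (if d = 0 then 16 else 0) else 4 * sg l (t1 g h d) := by
  decide +kernel

theorem sum_cc (l : Fin 3) (g h : Fin 5) (b c : Fin 16) :
    ∑ z, cc g b l z * cc h c l z =
      if g = h then (if b = c then 16 else 0) else 4 * sg l (tt g b h c) := by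
  by_cases hg : g = 0
  · subst hg
    by_cases hh : h = 0
    · subst hh
      simp [cc, eq_comm]
    · have h0 : (0 : Fin 5) ≠ h := fun e => hh e.symm
      simp [cc, hh, h0, tt]
  · by_cases hh : h = 0
    · subst hh
      simp only [cc, hg, if_false, if_true, tt]
      simp [mul_comm]
    · simp only [cc, hg, hh, if_false, tt]
      have : ∀ z, sg l (fn g b z) * sg l (fn h c z) = sg l ((q g z ^^^ q h z) ^^^ lin (b ^^^ c) z) := by
        intro z
        rw [← sg_xor, fn_xor]
      rw [Finset.sum_congr rfl (fun z _ => this z), sum16]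
      have h1 := s16_eq l g h (b ^^^ c) hg hh
      unfold s16 at h1
      simp only [xor16_zero_iff] at h1
      exact h1

theorem V_dot (u v : Lab) : ∑ i, V u i * V v i =
    if u = v then 60 else if adj u v then 12 else -4 := by
  obtain ⟨g, b, k⟩ := u
  obtain ⟨h, c, m⟩ := v
  rw [Fintype.sum_sum_type, Fintype.sum_prod_type, Fintype.sum_prod_type]
  have h1 : ∀ l : Fin 3, ∑ z, V (g, b, k) (Sum.inl (l, z)) * V (h, c, m) (Sum.inl (l, z)) =
      sg l (k ^^^ m) * (if g = h then (if b = c then 16 else 0) else 4 * sg l (tt g b h c)) := by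
    intro l
    rw [← sum_cc, Finset.mul_sum]
    refine Finset.sum_congr rfl fun z _ => ?_
    simp only [V, sg_xor]
    ring
  simp only [h1]
  have h2 : ∑ x : Fin 5, ∑ y : Fin 3, V (g, b, k) (Sum.inr (x, y)) * V (h, c, m) (Sum.inr (x, y)) =
      if g = h then 4 * ∑ l, sg l (beta g b ^^^ beta h c) else 0 := by
    simp only [V]
    by_cases hgh : g = h
    · subst hgh
      rw [Finset.sum_eq_single g]
      · simp only [if_true, Finset.mul_sum]
        refine Finset.sum_congr rfl fun l _ => ?_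
        rw [sg_xor]; ring
      · intro x _ hx
        simp [hx]
      · simp
    · rw [if_neg hgh]
      refine Finset.sum_eq_zero fun x _ => Finset.sum_eq_zero fun y _ => ?_
      by_cases hx : x = g
      · subst hx; simp [hgh]
      · simp [hx]
  rw [h2, sum_sg]
  by_cases hgh : g = h
  · subst hgh
    by_cases hbc : b = c
    · subst hbc
      simp only [if_true]
      rw [← Finset.sum_mul, sum_sg]
      simp only [xor_zero_iff, if_true, Prod.mk.injEq, true_and, adj]
      by_cases hk : k = m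
      · simp [hk]
      · simp [hk]
    · simp only [if_true, if_neg hbc, mul_zero, Finset.sum_const_zero, zero_add, xor_zero_iff,
        Prod.mk.injEq, hbc, false_and, and_false, if_false, adj]
      by_cases hb : beta g b = beta g c
      · simp [hb, hbc]
      · simp [hb, hbc]
  · simp only [if_neg hgh, add_zero, Prod.mk.injEq, hgh, false_and, if_false, adj]
    have h3 : ∀ l : Fin 3, sg l (k ^^^ m) * (4 * sg l (tt g b h c)) =
        4 * sg l ((k ^^^ m) ^^^ tt g b h c) := by
      intro l; rw [sg_xor l (k ^^^ m)]; ring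
    simp only [h3, ← Finset.mul_sum]
    simp only [sum_sg, xor_zero_iff]
    by_cases hk : k ^^^ m = tt g b h c
    · simp [hk]
    · simp [hk]

end Vale.Agent.Borsuk
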