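import Vale.Agent.Borsuk.Clique
import Vale.Agent.Borsuk.Extra

namespace Vale.Agent.Borsuk

open Finset

theorem card_coord : Fintype.card Coord = 63 := rfl

noncomputable def ee : Fin 63 ≃ Coord := (Fintype.equivFinOfCardEq card_coord).symm

noncomputable def mk (a : Coord → ℝ) : EuclideanSpace ℝ (Fin 63) :=
  WithLp.toLp 2 (fun j => a (ee j))

theorem dist_mk (a b : Coord → ℝ) : dist (mk a) (mk b) ^ 2 =
    ∑ i, a i * a i + ∑ i, b i * b i - 2 * ∑ i, a i * b i := by
  rw [EuclideanSpace.dist_eq, Real.sq_sqrt (Finset.sum_nonneg fun i _ => sq_nonneg _)]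
  have h : ∀ j : Fin 63, dist ((mk a).ofLp j) ((mk b).ofLp j) ^ 2 =
      (a (ee j) - b (ee j)) ^ 2 := by
    intro j
    rw [Real.dist_eq, sq_abs]
    rfl
  rw [Finset.sum_congr rfl (fun j _ => h j), Equiv.sum_comp ee (fun i => (a i - b i) ^ 2),
    Finset.mul_sum, ← Finset.sum_add_distrib, ← Finset.sum_sub_distrib]
  refine Finset.sum_congr rfl fun i _ => ?_
  ring

/-- Scale of the extra point: 13 t^2 + 2 t = 17. -/
noncomputable def tS : ℝ := (Real.sqrt 222 - 1) / 13

theorem tS_eq : 13 * tS ^ 2 + 2 * tS = 17 := by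
  have h : Real.sqrt 222 ^ 2 = 222 := Real.sq_sqrt (by norm_num)
  unfold tS
  field_simp
  nlinarith [h]

theorem tS_pos : 0 < tS := by
  have h : (1 : ℝ) < Real.sqrt 222 := by
    rw [show (1 : ℝ) = Real.sqrt 1 by simp]
    exact Real.sqrt_lt_sqrt (by norm_num) (by norm_num)
  unfold tS
  linarith

noncomputable def X : Option Lab → EuclideanSpace ℝ (Fin 63)
  | some u => mk (fun i => (V u i : ℝ))
  | none => mk (fun i => tS * (W i : ℝ))

/-- Closeness of two different labels. -/
def cl : Option Lab → Option Lab → Bool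
  | some u, some v => adj u v
  | some u, none => aw u
  | none, some v => aw v
  | none, none => true

theorem dist_some (u v : Lab) (h : u ≠ v) :
    dist (X (some u)) (X (some v)) ^ 2 = if adj u v then 96 else 128 := by
  have h1 : ∑ i, (V u i : ℝ) * (V u i : ℝ) = 60 := by
    have := V_dot u u
    simp only [if_true] at this
    exact_mod_cast this
  have h2 : ∑ i, (V v i : ℝ) * (V v i : ℝ) = 60 := by
    have := V_dot v v
    simp only [if_true] at this
    exact_mod_cast this
  have h3 : ∑ i, (V u i : ℝ) * (V v i : ℝ) = if adj u v then 12 else -4 := by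
    have := V_dot u v
    rw [if_neg h] at this
    exact_mod_cast this
  unfold X
  rw [dist_mk, h1, h2, h3]
  split_ifs <;> norm_num

theorem dist_none (u : Lab) :
    dist (X none) (X (some u)) ^ 2 = if aw u then 128 - 32 * tS else 128 := by
  have h1 : ∑ i, (V u i : ℝ) * (V u i : ℝ) = 60 := by
    have := V_dot u u
    simp only [if_true] at this
    exact_mod_cast this
  have h2 : ∑ i, (tS * (W i : ℝ)) * (tS * (W i : ℝ)) = 52 * tS ^ 2 := by
    have h4 : ∑ i, (W i : ℝ) * (W i : ℝ) = 52 := by exact_mod_cast W_norm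
    rw [← h4, Finset.sum_mul]
    refine Finset.sum_congr rfl fun i _ => ?_
    ring
  have h3 : ∑ i, (tS * (W i : ℝ)) * (V u i : ℝ) = tS * (if aw u then 12 else -4) := by
    have h4 : ∑ i, (W i : ℝ) * (V u i : ℝ) = if aw u then 12 else -4 := by
      exact_mod_cast W_dot u
    rw [← h4, Finset.mul_sum]
    refine Finset.sum_congr rfl fun i _ => ?_
    ring
  have h5 := tS_eq
  unfold X
  rw [dist_mk, h1, h2, h3]
  split_ifs
  · linarith
  · linarith

theorem adj_self_or (u v : Option Lab) (h : u ≠ v) :
    (cl u v = true ∧ dist (X u) (X v) ^ 2 < 128) ∨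
      (cl u v = false ∧ dist (X u) (X v) ^ 2 = 128) := by
  have ht := tS_pos
  rcases u with _ | u <;> rcases v with _ | v
  · exact absurd rfl h
  · rw [dist_none]
    by_cases ha : aw v = true
    · left; refine ⟨ha, ?_⟩; rw [if_pos ha]; linarith
    · right
      refine ⟨Bool.eq_false_iff.2 ha, ?_⟩
      rw [if_neg ha]
  · rw [dist_comm, dist_none]
    by_cases ha : aw u = true
    · left; refine ⟨ha, ?_⟩; rw [if_pos ha]; linarith
    · right
      refine ⟨Bool.eq_false_iff.2 ha, ?_⟩
      rw [if_neg ha]
  · have huv : u ≠ v := fun e => h (by rw [e])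
    rw [dist_some u v huv]
    by_cases ha : adj u v = true
    · left; refine ⟨ha, ?_⟩; rw [if_pos ha]; norm_num
    · right
      refine ⟨Bool.eq_false_iff.2 ha, ?_⟩
      rw [if_neg ha]

theorem clique_opt (s : Finset (Option Lab)) (hs : ∀ x ∈ s, ∀ y ∈ s, x ≠ y → cl x y = true) :
    s.card ≤ 5 := by
  classical
  have hs' : ∀ x ∈ Finset.eraseNone s, ∀ y ∈ Finset.eraseNone s, x ≠ y → adj x y = true := by
    intro x hx y hy hxy
    rw [Finset.mem_eraseNone] at hx hy
    exact hs _ hx _ hy (fun e => hxy (Option.some.inj e))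
  by_cases h : none ∈ s
  · have h1 := clique_aw (Finset.eraseNone s) hs' (by
      intro x hx
      rw [Finset.mem_eraseNone] at hx
      exact hs _ hx _ h (by simp))
    have h2 := Finset.card_eraseNone_of_mem h
    omega
  · have h1 := clique_lab (Finset.eraseNone s) hs'
    have h2 := Finset.card_eraseNone_of_not_mem h
    omega

theorem dist_le (u v : Option Lab) : dist (X u) (X v) ≤ Real.sqrt 128 := by
  rw [← Real.sqrt_sq (dist_nonneg (x := X u) (y := X v))]
  apply Real.sqrt_le_sqrt
  by_cases h : u = v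
  · subst h; simp
  · rcases adj_self_or u v h with h1 | h1
    · exact h1.2.le
    · exact h1.2.le

theorem far_pair : dist (X (some (0, 0, 0))) (X (some (0, 0, 1))) = Real.sqrt 128 := by
  have h := dist_some (0, 0, 0) (0, 0, 1) (by decide)
  rw [if_neg (by decide)] at h
  rw [← h, Real.sqrt_sq dist_nonneg]

theorem diam_range : Metric.diam (Set.range X) = Real.sqrt 128 := by
  apply le_antisymm
  · apply Metric.diam_le_of_forall_dist_le (Real.sqrt_nonneg _)
    rintro _ ⟨u, rfl⟩ _ ⟨v, rfl⟩
    exact dist_le u v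
  · rw [← far_pair]
    exact Metric.dist_le_diam_of_mem (Set.finite_range X).isBounded ⟨_, rfl⟩ ⟨_, rfl⟩

theorem part_card (P : Set (EuclideanSpace ℝ (Fin 63))) (hb : Bornology.IsBounded P)
    (hd : Metric.diam P < Real.sqrt 128) (s : Finset (Option Lab)) (hs : ∀ u ∈ s, X u ∈ P) :
    s.card ≤ 5 := by
  apply clique_opt
  intro u hu v hv huv
  rcases adj_self_or u v huv with h | h
  · exact h.1
  · exfalso
    have h1 := Metric.dist_le_diam_of_mem hb (hs u hu) (hs v hv)
    have h2 : dist (X u) (X v) = Real.sqrt 128 := by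
      rw [← h.2, Real.sqrt_sq dist_nonneg]
    linarith

theorem X_injective : Function.Injective X := by
  intro u v huv
  by_contra h
  rcases adj_self_or u v h with h1 | h1
  · rcases u with _ | u <;> rcases v with _ | v
    · exact h rfl
    · have h2 := dist_none v
      rw [huv, dist_self] at h2
      have h3 := tS_eq
      have h4 := tS_pos
      split_ifs at h2
      · nlinarith
      · norm_num at h2
    · have h2 := dist_none u
      rw [← huv, dist_self] at h2
      have h3 := tS_eq
      have h4 := tS_pos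
      split_ifs at h2
      · nlinarith
      · norm_num at h2
    · have h2 := dist_some u v (fun e => h (by rw [e]))
      rw [huv, dist_self] at h2
      split_ifs at h2 <;> norm_num at h2
  · rw [huv, dist_self] at h1
    norm_num at h1

theorem card_le_of_cover (α : Type) [Fintype α] [DecidableEq α] (Q : Fin 64 → α → Prop)
    (hQ : ∀ i, ∀ s : Finset α, (∀ u ∈ s, Q i u) → s.card ≤ 5) (hc : ∀ u, ∃ i, Q i u) :
    Fintype.card α ≤ 320 := by
  classical
  have h1 : (Finset.univ : Finset α) ⊆
      Finset.univ.biUnion (fun i : Fin 64 => Finset.univ.filter (fun u => Q i u)) := by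
    intro u _
    obtain ⟨i, hi⟩ := hc u
    simp only [Finset.mem_biUnion, Finset.mem_univ, true_and, Finset.mem_filter]
    exact ⟨i, hi⟩
  have h2 := Finset.card_le_card h1
  rw [Finset.card_univ] at h2
  refine le_trans h2 (le_trans Finset.card_biUnion_le ?_)
  refine le_trans (Finset.sum_le_card_nsmul _ _ 5 ?_) (by simp)
  intro i _
  refine hQ i _ ?_
  intro u hu
  rw [Finset.mem_filter] at hu
  exact hu.2

theorem not_covered (P : Fin 64 → Set (EuclideanSpace ℝ (Fin 63)))
    (hP : ∀ i, Bornology.IsBounded (P i) ∧ Metric.diam (P i) < Metric.diam (Set.range X)) :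
    ¬ Set.range X ⊆ ⋃ i, P i := by
  intro hcov
  have hcard : Fintype.card (Option Lab) = 321 := by
    simp [Lab, Fintype.card_option, Fintype.card_prod]
  have h := card_le_of_cover (Option Lab) (fun i u => X u ∈ P i)
    (fun i s hs => part_card (P i) (hP i).1 (by rw [← diam_range]; exact (hP i).2) s hs)
    (fun u => by
      have := hcov (Set.mem_range_self u)
      rwa [Set.mem_iUnion] at this)
  omega

end Vale.Agent.Borsuk
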